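import Vale.Agent.Lib.P304.PadDefs

namespace Vale.Agent.Lib.P304

open MeasureTheory

section basics

variable {ι X : Type} [DecidableEq ι] [MetricSpace X]

lemma cost_nonneg (π : Policy ι X) (s : ι → X) (h : List X) : 0 ≤ cost π s h := by
  induction h with
  | nil => simp [cost]
  | cons r h ih => simp only [cost]; positivity

lemma opt_le_cost (π : Policy ι X) (s : ι → X) (h : List X) : opt s h ≤ cost π s h :=
  ciInf_le ⟨0, by rintro _ ⟨π', rfl⟩; exact cost_nonneg π' s h⟩ π

lemma le_opt [Nonempty ι] (s : ι → X) (h : List X) (a : ℝ)
    (ha : ∀ π : Policy ι X, a ≤ cost π s h) : a ≤ opt s h :=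
  le_ciInf ha

lemma cost_le_of_dist_le (M : ℝ) (hM : ∀ a b : X, dist a b ≤ M) (π : Policy ι X) (s : ι → X)
    (h : List X) : cost π s h ≤ h.length * M := by
  induction h with
  | nil => simp [cost]
  | cons r h ih =>
    simp only [cost, List.length_cons, Nat.cast_add, Nat.cast_one]
    have := hM (conf π s h (π (r :: h))) r
    linarith

end basics



section lift

variable {ι X : Type} [DecidableEq ι] [MetricSpace X] [BoundedSpace X]

/-- Interleaving: after each request, a request to the new point (lists are most recent
first). -/
def inter {X : Type} : List X → List (Pad X)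
  | [] => []
  | r :: h => Pad.far :: Pad.inj r :: inter h

/-- Forget the requests to the new point. -/
def deinter {X : Type} : List (Pad X) → List X
  | [] => []
  | Pad.far :: l => deinter l
  | Pad.inj r :: l => r :: deinter l

omit [MetricSpace X] [BoundedSpace X] in
lemma deinter_inter (h : List X) : deinter (inter h) = h := by
  induction h with
  | nil => rfl
  | cons r h ih => simp [inter, deinter, ih]

/-- An offline schedule on `X` lifted to the padded instance: the new server never moves. -/
def liftPol {ι X : Type} (π : Policy ι X) : Policy (Option ι) (Pad X)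
  | [] => none
  | Pad.far :: _ => none
  | Pad.inj r :: l => some (π (r :: deinter l))

omit [MetricSpace X] [BoundedSpace X] in
lemma padConf_update (c : ι → X) (i : ι) (x : X) :
    Function.update (padConf c) (some i) (Pad.inj x) = padConf (Function.update c i x) := by
  funext o
  cases o with
  | none => simp [padConf]
  | some j =>
    by_cases hj : j = i
    · subst hj; simp [padConf]
    · simp [padConf, Function.update_of_ne, hj]

lemma lift_conf_cost (π : Policy ι X) (s : ι → X) (h : List X) :
    conf (liftPol π) (padConf s) (inter h) = padConf (conf π s h) ∧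
      cost (liftPol π) (padConf s) (inter h) = cost π s h := by
  induction h with
  | nil => exact ⟨rfl, rfl⟩
  | cons r h ih =>
    obtain ⟨ih1, ih2⟩ := ih
    have hc1 : conf (liftPol π) (padConf s) (Pad.inj r :: inter h)
        = padConf (Function.update (conf π s h) (π (r :: h)) r) := by
      simp only [conf, liftPol, deinter_inter, ih1]
      exact padConf_update _ _ _
    constructor
    · simp only [inter]
      rw [conf, hc1]
      simp only [liftPol, conf]
      exact Function.update_eq_self _ _
    · simp only [inter]
      rw [cost, hc1, cost, ih1, ih2]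
      simp only [liftPol, deinter_inter, cost]
      have e1 : dist (padConf (conf π s h) (some (π (r :: h)))) (Pad.inj r)
          = dist (conf π s h (π (r :: h))) r := rfl
      have e2 : dist (padConf (Function.update (conf π s h) (π (r :: h)) r) none) Pad.far
          = 0 := rfl
      rw [e1, e2, add_zero]

lemma opt_pad_le [Nonempty ι] (s : ι → X) (h : List X) :
    opt (padConf s) (inter h) ≤ opt s h := by
  apply le_ciInf
  intro π
  have h1 : opt (padConf s) (inter h) ≤ cost (liftPol π) (padConf s) (inter h) :=
    ciInf_le ⟨0, by
      rintro _ ⟨π', rfl⟩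
      induction (inter h) with
      | nil => simp [cost]
      | cons r l ih => simp only [cost]; positivity⟩ (liftPol π)
  rw [(lift_conf_cost π s h).2] at h1
  exact h1

end lift



section pad

variable {X : Type} [MetricSpace X] [BoundedSpace X]

/-- The distance from the new point to the old ones. -/
noncomputable def padD (X : Type) [MetricSpace X] : ℝ := 1 + Metric.diam (Set.univ : Set X)

lemma dist_far_inj (x : X) : dist (Pad.far : Pad X) (Pad.inj x) = padD X := rfl
lemma dist_inj_far (x : X) : dist (Pad.inj x) (Pad.far : Pad X) = padD X := rfl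
lemma dist_inj_inj (x y : X) : dist (Pad.inj x) (Pad.inj y) = dist x y := rfl
lemma dist_far_far : dist (Pad.far : Pad X) Pad.far = 0 := rfl

lemma dist_le_padD (x y : X) : dist x y ≤ padD X := by
  have := Metric.dist_le_diam_of_mem (Bornology.IsBounded.all (Set.univ : Set X))
    (Set.mem_univ x) (Set.mem_univ y)
  unfold padD
  linarith

omit [BoundedSpace X] in
lemma padD_nonneg : 0 ≤ padD X := by
  have : 0 ≤ Metric.diam (Set.univ : Set X) := Metric.diam_nonneg
  unfold padD
  linarith

lemma pad_dist_le (a b : Pad X) : dist a b ≤ padD X := by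
  cases a <;> cases b
  · rw [dist_far_far]; exact padD_nonneg
  · rw [dist_far_inj]
  · rw [dist_inj_far]
  · rw [dist_inj_inj]; exact dist_le_padD _ _

/-- Projection of the padded space onto `X`, sending the new point to `x0`. -/
def proj {X : Type} (x0 : X) : Pad X → X
  | Pad.far => x0
  | Pad.inj x => x

omit [MetricSpace X] [BoundedSpace X] in
lemma proj_far (x0 : X) : proj x0 (Pad.far : Pad X) = x0 := rfl

omit [MetricSpace X] [BoundedSpace X] in
lemma proj_inj (x0 x : X) : proj x0 (Pad.inj x) = x := rfl

lemma proj_lipschitz (x0 : X) (a b : Pad X) : dist (proj x0 a) (proj x0 b) ≤ dist a b := by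
  cases a <;> cases b
  · simp [proj]
  · rw [dist_far_inj]; exact dist_le_padD _ _
  · rw [dist_inj_far]; exact dist_le_padD _ _
  · rw [dist_inj_inj]; exact le_refl _

end pad

section step

variable {ι X : Type} [DecidableEq ι] [MetricSpace X] [BoundedSpace X]

lemma step_pointwise (x0 : X) (l0 : ι) (e : Equiv.Perm (Option ι)) (c' : Option ι → Pad X)
    (P : ι → X) (r : X) (i j' : Option ι) (hinv : c' (e none) = Pad.far)
    (t : Option ι) (ht : t = if i = e none then j' else i)
    (ls : ι) (hls : ls = ((e.symm t).getD l0))
    (ct : Option ι → Pad X) (hct : ct = Function.update c' i (Pad.inj r))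
    (γ : Option ι → ℝ)
    (hγ : γ = fun q => (if q = i then dist (c' i) (Pad.inj r) else 0)
      + (if q = j' then dist (ct j') Pad.far else 0))
    (l : ι) :
    (if l = ls then dist (P ls) r else 0)
      + dist (Function.update P ls r l)
          (proj x0 (Function.update ct j' Pad.far ((Equiv.swap (e none) j' * e) (some l))))
    ≤ dist (P l) (proj x0 (c' (e (some l)))) + γ (e (some l))
      + (if l = ls then γ (e none) else 0) := by
  have hγ0 : ∀ q, 0 ≤ γ q := by
    intro q
    rw [hγ]
    positivity
  set q := e (some l) with hq
  set j := e none with hj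
  have hqj : q ≠ j := by
    intro h
    have := e.injective h
    exact Option.some_ne_none l this
  have hsymm : e.symm q = some l := by rw [hq, Equiv.symm_apply_apply]
  -- the distance bound in X
  have hD : ∀ a b : X, dist a b ≤ padD X := dist_le_padD
  have hD0 : 0 ≤ padD X := padD_nonneg
  rw [Equiv.Perm.mul_apply, ← hq]
  by_cases h1 : q = j'
  · -- q = j'
    have hjj' : j ≠ j' := fun h => hqj (h1.trans h.symm)
    have hswap : Equiv.swap j j' q = j := by rw [h1, Equiv.swap_apply_right]
    rw [hswap, Function.update_of_ne hjj']
    by_cases h2 : i = j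
    · -- i = j : the far server goes to r, q = j' goes to far
      have htq : t = q := by rw [ht, if_pos h2, h1]
      have hlsl : ls = l := by rw [hls, htq, hsymm]; rfl
      have hctj : ct j = Pad.inj r := by rw [hct, ← h2, Function.update_self]
      have hγj : γ j = padD X + (if j = j' then dist (ct j') Pad.far else 0) := by
        rw [hγ]
        simp only
        rw [if_pos h2.symm, h2, hinv, dist_far_inj]
      rw [if_neg hjj', add_zero] at hγj
      rw [hlsl, if_pos rfl, if_pos rfl, Function.update_self, hctj, hγj]
      simp only [proj_far, proj_inj, dist_self, add_zero]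
      have := dist_triangle (P l) (proj x0 (c' q)) r
      have := hD (proj x0 (c' q)) r
      have := hγ0 q
      linarith
    · -- i ≠ j
      have hctj : ct j = Pad.far := by
        rw [hct, Function.update_of_ne (Ne.symm h2), hinv]
      rw [hctj]
      by_cases h3 : i = j'
      · -- i = j' = q : server i goes to r and then to far
        have htq : t = q := by rw [ht, if_neg h2, h3, h1]
        have hlsl : ls = l := by rw [hls, htq, hsymm]; rfl
        have hγq : γ q = dist (c' i) (Pad.inj r) + padD X := by
          rw [hγ]
          simp only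
          rw [if_pos (h1.trans h3.symm), if_pos h1, hct, ← h3, Function.update_self, dist_inj_far]
        rw [hlsl, if_pos rfl, if_pos rfl, Function.update_self, hγq]
        simp only [proj_far, proj_inj]
        have hqi : q = i := h1.trans h3.symm
        have e1 := dist_triangle (P l) (proj x0 (c' q)) r
        have e2 : dist (proj x0 (c' q)) r ≤ dist (c' i) (Pad.inj r) := by
          rw [hqi]
          exact proj_lipschitz x0 (c' i) (Pad.inj r)
        have e3 := hD r x0
        have e4 := hγ0 j
        linarith
      · -- i ≠ j', i ≠ j : q = j' goes to far, another label serves r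
        have hlsl : l ≠ ls := by
          intro h
          have hti : t = i := by rw [ht, if_neg h2]
          have : e.symm t = some ls := by
            rw [hls]
            cases hs : e.symm t with
            | none =>
              exfalso
              have : t = e none := by rw [← hs, Equiv.apply_symm_apply]
              exact h2 (hti.symm.trans this)
            | some a => rfl
          rw [← h, hti] at this
          have : i = q := by rw [hq, ← this, Equiv.apply_symm_apply]
          exact h3 (this.trans h1)
        have hγq : γ q = dist (c' j') Pad.far := by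
          rw [hγ]
          simp only
          rw [if_neg (fun h => h3 (h.symm.trans h1)), if_pos h1, hct,
            Function.update_of_ne (Ne.symm h3), zero_add]
        rw [if_neg hlsl, if_neg hlsl, Function.update_of_ne hlsl, hγq, zero_add, add_zero]
        simp only [proj_far, proj_inj]
        have e1 := dist_triangle (P l) (proj x0 (c' q)) x0
        have e2 : dist (proj x0 (c' q)) x0 ≤ dist (c' j') Pad.far := by
          rw [h1]
          exact proj_lipschitz x0 (c' j') Pad.far
        linarith
  · -- q ≠ j'
    have hswap : Equiv.swap j j' q = q := Equiv.swap_apply_of_ne_of_ne hqj h1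
    rw [hswap, Function.update_of_ne h1]
    by_cases h2 : q = i
    · -- q = i ≠ j : label l serves r
      have hij : i ≠ j := fun h => hqj (h2.trans h)
      have htq : t = q := by rw [ht, if_neg hij, h2]
      have hlsl : ls = l := by rw [hls, htq, hsymm]; rfl
      have hctq : ct q = Pad.inj r := by rw [hct, h2, Function.update_self]
      have hγq : dist (c' i) (Pad.inj r) ≤ γ q := by
        rw [hγ]
        simp only
        rw [if_pos h2, if_neg h1, add_zero]
      rw [hlsl, if_pos rfl, if_pos rfl, Function.update_self, hctq]
      simp only [proj_far, proj_inj, dist_self, add_zero]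
      have e1 := dist_triangle (P l) (proj x0 (c' q)) r
      have e2 : dist (proj x0 (c' q)) r ≤ dist (c' i) (Pad.inj r) := by
        rw [h2]
        exact proj_lipschitz x0 (c' i) (Pad.inj r)
      have e4 := hγ0 j
      linarith
    · -- q ≠ i, q ≠ j', q ≠ j
      have hctq : ct q = c' q := by rw [hct, Function.update_of_ne h2]
      rw [hctq]
      by_cases h3 : l = ls
      · -- then i = j = j' (round trip of the far server)
        have hnone : e.symm t = none := by
          cases hs : e.symm t with
          | none => rfl
          | some a =>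
            exfalso
            have hla : ls = a := by rw [hls, hs]; rfl
            have hta : t = e (some a) := by rw [← hs, Equiv.apply_symm_apply]
            rw [← hla, ← h3, ← hq] at hta
            rw [ht] at hta
            by_cases hc : i = j
            · rw [if_pos hc] at hta
              exact h1 hta.symm
            · rw [if_neg hc] at hta
              exact h2 hta.symm
        have htj : t = j := by rw [hj, ← hnone, Equiv.apply_symm_apply]
        have hij : i = j := by
          by_contra hc
          rw [ht, if_neg hc] at htj
          exact hc htj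
        have hj'j : j' = j := by
          rw [ht, if_pos hij] at htj
          exact htj
        have hγj : γ j = padD X + padD X := by
          rw [hγ]
          simp only
          rw [if_pos hij.symm, if_pos hj'j.symm, hct, hj'j, ← hij, Function.update_self,
            dist_inj_far, hij, hinv, dist_far_inj]
        rw [← h3, if_pos rfl, if_pos rfl, Function.update_self, hγj]
        have e1 := dist_triangle (P l) (proj x0 (c' q)) r
        have e2 := hD (proj x0 (c' q)) r
        have e3 := hD r (proj x0 (c' q))
        have e4 := hγ0 q
        linarith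
      · rw [if_neg h3, if_neg h3, Function.update_of_ne h3]
        have e4 := hγ0 q
        linarith

lemma step_sum [Fintype ι] (x0 : X) (l0 : ι) (e : Equiv.Perm (Option ι))
    (c' : Option ι → Pad X) (P : ι → X) (r : X) (i j' : Option ι)
    (hinv : c' (e none) = Pad.far) :
    dist (P ((e.symm (if i = e none then j' else i)).getD l0)) r
      + ∑ l, dist (Function.update P ((e.symm (if i = e none then j' else i)).getD l0) r l)
          (proj x0 (Function.update (Function.update c' i (Pad.inj r)) j' Pad.far
            ((Equiv.swap (e none) j' * e) (some l))))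
    ≤ (∑ l, dist (P l) (proj x0 (c' (e (some l)))))
      + dist (c' i) (Pad.inj r) + dist (Function.update c' i (Pad.inj r) j') Pad.far := by
  obtain ⟨t, ht⟩ : ∃ t, t = if i = e none then j' else i := ⟨_, rfl⟩
  obtain ⟨ls, hls⟩ : ∃ ls, ls = (e.symm t).getD l0 := ⟨_, rfl⟩
  obtain ⟨ct, hct⟩ : ∃ ct, ct = Function.update c' i (Pad.inj r) := ⟨_, rfl⟩
  obtain ⟨γ, hγ⟩ : ∃ γ : Option ι → ℝ, γ = fun q =>
      (if q = i then dist (c' i) (Pad.inj r) else 0)
        + (if q = j' then dist (ct j') Pad.far else 0) := ⟨_, rfl⟩
  rw [← ht, ← hls, ← hct]
  have hK := fun l => step_pointwise x0 l0 e c' P r i j' hinv t ht ls hls ct hct γ hγ l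
  have hsum := Finset.sum_le_sum (fun l (_ : l ∈ Finset.univ) => hK l)
  rw [Finset.sum_add_distrib, Finset.sum_add_distrib, Finset.sum_add_distrib] at hsum
  have s1 : ∑ l : ι, (if l = ls then dist (P ls) r else 0) = dist (P ls) r := by
    rw [Finset.sum_ite_eq' Finset.univ ls (fun _ => dist (P ls) r)]
    simp
  have s2 : ∑ l : ι, (if l = ls then γ (e none) else 0) = γ (e none) := by
    rw [Finset.sum_ite_eq' Finset.univ ls (fun _ => γ (e none))]
    simp
  have s3 : γ (e none) + ∑ l : ι, γ (e (some l)) = ∑ q : Option ι, γ q := by
    rw [← Equiv.sum_comp e γ, Fintype.sum_option]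
  have s4 : ∑ q : Option ι, γ q = dist (c' i) (Pad.inj r) + dist (ct j') Pad.far := by
    rw [hγ, Finset.sum_add_distrib,
      Finset.sum_ite_eq' Finset.univ i (fun _ => dist (c' i) (Pad.inj r)),
      Finset.sum_ite_eq' Finset.univ j' (fun _ => dist (ct j') Pad.far)]
    simp
  rw [s1, s2] at hsum
  linarith

end step


section sim

variable {ι X : Type} [Fintype ι] [DecidableEq ι] [MetricSpace X] [BoundedSpace X]

/-- The tracking permutation of the simulation: `track π' h none` is the server of the padded
policy that served the last request to the new point, and label `l` follows the server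
`track π' h (some l)`. -/
def track {ι X : Type} [DecidableEq ι] (π' : Policy (Option ι) (Pad X)) :
    List X → Equiv.Perm (Option ι)
  | [] => Equiv.refl _
  | r :: h => Equiv.swap (track π' h none) (π' (Pad.far :: Pad.inj r :: inter h)) * track π' h

/-- The policy with one server less, simulating the padded policy `π'` on the interleaved
requests. -/
def sim {ι X : Type} [DecidableEq ι] (l0 : ι) (π' : Policy (Option ι) (Pad X)) : Policy ι X
  | [] => l0
  | r :: h =>
    ((track π' h).symm
      (if π' (Pad.inj r :: inter h) = track π' h none then π' (Pad.far :: Pad.inj r :: inter h)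
        else π' (Pad.inj r :: inter h))).getD l0

lemma sim_invariant (l0 : ι) (x0 : X) (π' : Policy (Option ι) (Pad X)) (s : ι → X)
    (h : List X) :
    conf π' (padConf s) (inter h) (track π' h none) = Pad.far ∧
      cost (sim l0 π') s h
        + ∑ l, dist (conf (sim l0 π') s h l)
            (proj x0 (conf π' (padConf s) (inter h) (track π' h (some l))))
        ≤ cost π' (padConf s) (inter h) := by
  induction h with
  | nil =>
    refine ⟨rfl, ?_⟩
    have : ∀ l : ι, dist (conf (sim l0 π') s [] l)
        (proj x0 (conf π' (padConf s) (inter []) (track π' [] (some l)))) = 0 := by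
      intro l
      show dist (s l) (s l) = 0
      exact dist_self _
    simp only [this, Finset.sum_const_zero]
    show (0 : ℝ) + 0 ≤ 0
    simp
  | cons r h ih =>
    obtain ⟨hinv, hpot⟩ := ih
    have hstep := step_sum x0 l0 (track π' h) (conf π' (padConf s) (inter h))
      (conf (sim l0 π') s h) r (π' (Pad.inj r :: inter h))
      (π' (Pad.far :: Pad.inj r :: inter h)) hinv
    constructor
    · show Function.update (conf π' (padConf s) (Pad.inj r :: inter h))
          (π' (Pad.far :: Pad.inj r :: inter h)) Pad.far
          ((Equiv.swap (track π' h none) (π' (Pad.far :: Pad.inj r :: inter h)) * track π' h)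
            none) = Pad.far
      rw [Equiv.Perm.mul_apply, Equiv.swap_apply_left, Function.update_self]
    · have e1 : cost (sim l0 π') s (r :: h)
          = cost (sim l0 π') s h + dist (conf (sim l0 π') s h
            (((track π' h).symm
              (if π' (Pad.inj r :: inter h) = track π' h none
                then π' (Pad.far :: Pad.inj r :: inter h)
                else π' (Pad.inj r :: inter h))).getD l0)) r := rfl
      have e2 : cost π' (padConf s) (inter (r :: h))
          = cost π' (padConf s) (inter h)
            + dist (conf π' (padConf s) (inter h) (π' (Pad.inj r :: inter h))) (Pad.inj r)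
            + dist (Function.update (conf π' (padConf s) (inter h)) (π' (Pad.inj r :: inter h))
                (Pad.inj r) (π' (Pad.far :: Pad.inj r :: inter h))) Pad.far := rfl
      have e3 : ∀ l : ι, dist (conf (sim l0 π') s (r :: h) l)
            (proj x0 (conf π' (padConf s) (inter (r :: h)) (track π' (r :: h) (some l))))
          = dist (Function.update (conf (sim l0 π') s h)
              (((track π' h).symm
                (if π' (Pad.inj r :: inter h) = track π' h none
                  then π' (Pad.far :: Pad.inj r :: inter h)
                  else π' (Pad.inj r :: inter h))).getD l0) r l)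
            (proj x0 (Function.update (Function.update (conf π' (padConf s) (inter h))
                (π' (Pad.inj r :: inter h)) (Pad.inj r))
              (π' (Pad.far :: Pad.inj r :: inter h)) Pad.far
              ((Equiv.swap (track π' h none) (π' (Pad.far :: Pad.inj r :: inter h))
                * track π' h) (some l)))) := fun l => rfl
      rw [e1, e2]
      simp only [e3]
      linarith

lemma cost_sim_le (l0 : ι) (x0 : X) (π' : Policy (Option ι) (Pad X)) (s : ι → X)
    (h : List X) : cost (sim l0 π') s h ≤ cost π' (padConf s) (inter h) := by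
  have h1 := (sim_invariant l0 x0 π' s h).2
  have h2 : 0 ≤ ∑ l, dist (conf (sim l0 π') s h l)
      (proj x0 (conf π' (padConf s) (inter h) (track π' h (some l)))) :=
    Finset.sum_nonneg fun l _ => dist_nonneg
  linarith

end sim

section dm

variable {Ω : Type} [MeasurableSpace Ω]

/-- Discrete measurability: every fiber is measurable. -/
def DM {β : Type} (f : Ω → β) : Prop := ∀ b, MeasurableSet {ω | f ω = b}

lemma DM.const {β : Type} (b : β) : DM (fun _ : Ω => b) := by
  intro b'
  by_cases h : b = b' <;> simp [h]

lemma DM.pair {β γ : Type} {f : Ω → β} {g : Ω → γ} (hf : DM f) (hg : DM g) :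
    DM (fun ω => (f ω, g ω)) := by
  rintro ⟨b, c⟩
  have : {ω | (f ω, g ω) = (b, c)} = {ω | f ω = b} ∩ {ω | g ω = c} := by
    ext ω
    simp [Prod.ext_iff]
  rw [this]
  exact (hf b).inter (hg c)

lemma DM.comp {β γ : Type} [Countable β] {f : Ω → β} (hf : DM f) (G : β → γ) :
    DM (fun ω => G (f ω)) := by
  intro c
  have : {ω | G (f ω) = c} = ⋃ b : {b : β // G b = c}, {ω | f ω = b.1} := by
    ext ω
    simp only [Set.mem_setOf_eq, Set.mem_iUnion, Subtype.exists, exists_prop]
    constructor
    · intro h
      exact ⟨f ω, h, rfl⟩
    · rintro ⟨b, hb, hfb⟩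
      rw [hfb]
      exact hb
  rw [this]
  exact MeasurableSet.iUnion fun b => hf b.1

lemma DM.measurable_comp {β : Type} [Countable β] {f : Ω → β} (hf : DM f) (G : β → ℝ) :
    Measurable (fun ω => G (f ω)) := by
  intro S _
  have : (fun ω => G (f ω)) ⁻¹' S = ⋃ b : {b : β // G b ∈ S}, {ω | f ω = b.1} := by
    ext ω
    simp only [Set.mem_preimage, Set.mem_iUnion, Set.mem_setOf_eq, Subtype.exists, exists_prop]
    constructor
    · intro h
      exact ⟨f ω, h, rfl⟩
    · rintro ⟨b, hb, hfb⟩
      rw [hfb]
      exact hb
  rw [this]
  exact MeasurableSet.iUnion fun b => hf b.1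

end dm

section lists

variable {κ Y : Type} [DecidableEq κ]

/-- The decisions of a policy along a request list. -/
def decs {κ Y : Type} (π : Policy κ Y) : List Y → List κ
  | [] => []
  | r :: h => π (r :: h) :: decs π h

/-- Configuration as a function of the list of decisions. -/
def confL {κ Y : Type} [DecidableEq κ] (s : κ → Y) : List Y → List κ → κ → Y
  | r :: h, i :: d => Function.update (confL s h d) i r
  | _, _ => s

/-- Cost as a function of the list of decisions. -/
def costL {κ Y : Type} [DecidableEq κ] [MetricSpace Y] (s : κ → Y) : List Y → List κ → ℝ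
  | r :: h, i :: d => costL s h d + dist (confL s h d i) r
  | _, _ => 0

lemma conf_eq_confL (π : Policy κ Y) (s : κ → Y) (h : List Y) :
    conf π s h = confL s h (decs π h) := by
  induction h with
  | nil => rfl
  | cons r h ih => simp only [conf, decs, confL, ih]

lemma cost_eq_costL [MetricSpace Y] (π : Policy κ Y) (s : κ → Y) (h : List Y) :
    cost π s h = costL s h (decs π h) := by
  induction h with
  | nil => rfl
  | cons r h ih => simp only [cost, decs, costL, ih, conf_eq_confL]

end lists

section integrable

variable {κ Y : Type} [DecidableEq κ] [Countable κ] [MetricSpace Y]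

lemma dm_decs (A : RandPolicy κ Y) (h : List Y) :
    @DM A.Ω A.mΩ _ (fun ω => decs (A.pol ω) h) := by
  let _ := A.mΩ
  induction h with
  | nil => exact DM.const _
  | cons r h ih =>
    have h1 : DM (fun ω => A.pol ω (r :: h)) := fun i => A.meas (r :: h) i
    exact (h1.pair ih).comp (fun p : κ × List κ => p.1 :: p.2)

lemma integrable_cost (A : RandPolicy κ Y) (s : κ → Y) (h : List Y) (M : ℝ)
    (hM : ∀ a b : Y, dist a b ≤ M) :
    Integrable (fun ω => cost (A.pol ω) s h) A.μ := by
  let _ := A.mΩ
  have _ := A.prob
  have hmeas : Measurable (fun ω => cost (A.pol ω) s h) := by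
    have := (dm_decs A h).measurable_comp (costL s h)
    simp only [← cost_eq_costL] at this
    exact this
  refine Integrable.of_bound hmeas.aestronglyMeasurable (h.length * M)
    (Filter.Eventually.of_forall fun ω => ?_)
  rw [Real.norm_eq_abs, abs_of_nonneg (cost_nonneg _ _ _)]
  exact cost_le_of_dist_le M hM _ _ _

end integrable


section main

variable {ι X : Type} [Fintype ι] [DecidableEq ι] [MetricSpace X] [BoundedSpace X]

lemma dm_track (A' : RandPolicy (Option ι) (Pad X)) (h : List X) :
    @DM A'.Ω A'.mΩ _ (fun ω => track (A'.pol ω) h) := by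
  let _ := A'.mΩ
  induction h with
  | nil => exact DM.const _
  | cons r h ih =>
    have h1 : DM (fun ω => A'.pol ω (Pad.far :: Pad.inj r :: inter h)) :=
      fun i => A'.meas _ i
    exact (ih.pair h1).comp
      (fun p : Equiv.Perm (Option ι) × Option ι => Equiv.swap (p.1 none) p.2 * p.1)

lemma dm_sim (l0 : ι) (A' : RandPolicy (Option ι) (Pad X)) (h : List X) :
    @DM A'.Ω A'.mΩ _ (fun ω => sim l0 (A'.pol ω) h) := by
  let _ := A'.mΩ
  cases h with
  | nil => exact DM.const _
  | cons r h =>
    have h1 : DM (fun ω => A'.pol ω (Pad.inj r :: inter h)) := fun i => A'.meas _ i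
    have h2 : DM (fun ω => A'.pol ω (Pad.far :: Pad.inj r :: inter h)) :=
      fun i => A'.meas _ i
    exact ((dm_track A' h).pair (h1.pair h2)).comp
      (fun p : Equiv.Perm (Option ι) × Option ι × Option ι =>
        (p.1.symm (if p.2.1 = p.1 none then p.2.2 else p.2.1)).getD l0)

/-- The randomized policy with one server less obtained from a randomized padded policy. -/
def simRand (l0 : ι) (A' : RandPolicy (Option ι) (Pad X)) : RandPolicy ι X where
  Ω := A'.Ω
  mΩ := A'.mΩ
  μ := A'.μ
  prob := A'.prob
  pol := fun ω => sim l0 (A'.pol ω)
  meas := fun h i => dm_sim l0 A' h i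

theorem competitive_of_pad [Nonempty ι] (s : ι → X) (c : ℝ) (hc : 0 ≤ c)
    (A' : RandPolicy (Option ι) (Pad X)) (hA' : IsCompetitive A' (padConf s) c) :
    ∃ A : RandPolicy ι X, IsCompetitive A s c := by
  obtain ⟨B, hB⟩ := hA'
  let l0 : ι := Classical.arbitrary ι
  refine ⟨simRand l0 A', B, fun h => ?_⟩
  have h1 : ∫ ω, cost (sim l0 (A'.pol ω)) s h ∂A'.μ
      ≤ ∫ ω, cost (A'.pol ω) (padConf s) (inter h) ∂A'.μ := by
    apply integral_mono_of_nonneg
    · exact Filter.Eventually.of_forall fun ω => cost_nonneg _ _ _
    · exact integrable_cost A' (padConf s) (inter h) (padD X) pad_dist_le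
    · exact Filter.Eventually.of_forall fun ω => cost_sim_le l0 (s l0) (A'.pol ω) s h
  have h2 := hB (inter h)
  have h3 := opt_pad_le s h
  have h4 : c * opt (padConf s) (inter h) ≤ c * opt s h := mul_le_mul_of_nonneg_left h3 hc
  show ∫ ω, cost (sim l0 (A'.pol ω)) s h ∂A'.μ ≤ c * opt s h + B
  linarith

theorem ratio_le_ratio_pad [Nonempty ι] (s : ι → X) :
    ratio ι X s ≤ ratio (Option ι) (Pad X) (padConf s) := by
  unfold ratio
  refine le_iInf₂ fun c hc => ?_
  obtain ⟨A', hA'⟩ := hc
  exact iInf₂_le c (competitive_of_pad s c c.2 A' hA')

end main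

section relabel

variable {ι κ Y : Type} [DecidableEq ι] [DecidableEq κ] [MetricSpace Y]

lemma relabel_conf_cost (e : κ ≃ ι) (π : Policy κ Y) (s : ι → Y) (h : List Y) :
    conf (fun l => e (π l)) s h = conf π (s ∘ e) h ∘ e.symm ∧
      cost (fun l => e (π l)) s h = cost π (s ∘ e) h := by
  induction h with
  | nil =>
    refine ⟨?_, rfl⟩
    funext i
    simp [conf]
  | cons r h ih =>
    obtain ⟨ih1, ih2⟩ := ih
    constructor
    · simp only [conf, ih1]
      rw [Function.update_comp_equiv]
      simp
    · simp only [cost, ih1, ih2, Function.comp_apply, Equiv.symm_apply_apply]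

lemma opt_relabel_le [Nonempty ι] (e : κ ≃ ι) (s : ι → Y) (h : List Y) :
    opt (s ∘ e) h ≤ opt s h := by
  apply le_ciInf
  intro π'
  have h1 := (relabel_conf_cost e (fun l => e.symm (π' l)) s h).2
  simp only [Equiv.apply_symm_apply] at h1
  have h2 : cost (fun l => π' l) s h = cost π' s h := rfl
  rw [h2] at h1
  rw [h1]
  exact opt_le_cost _ _ _

/-- Relabelling the servers of a randomized policy. -/
def relabelRand (e : κ ≃ ι) (A : RandPolicy κ Y) : RandPolicy ι Y where
  Ω := A.Ω
  mΩ := A.mΩ
  μ := A.μ
  prob := A.prob
  pol := fun ω l => e (A.pol ω l)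
  meas := fun h i => by
    have : {ω | e (A.pol ω h) = i} = {ω | A.pol ω h = e.symm i} := by
      ext ω
      simp only [Set.mem_setOf_eq]
      constructor
      · intro hh; rw [← hh, Equiv.symm_apply_apply]
      · intro hh; rw [hh, Equiv.apply_symm_apply]
    rw [this]
    exact A.meas h (e.symm i)

lemma ratio_relabel_le [Nonempty ι] (e : κ ≃ ι) (s : ι → Y) :
    ratio ι Y s ≤ ratio κ Y (s ∘ e) := by
  unfold ratio
  refine le_iInf₂ fun c hc => ?_
  obtain ⟨A, B, hB⟩ := hc
  refine iInf₂_le c ⟨relabelRand e A, B, fun h => ?_⟩
  have h1 : ∫ ω, cost ((relabelRand e A).pol ω) s h ∂(relabelRand e A).μ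
      = ∫ ω, cost (A.pol ω) (s ∘ e) h ∂A.μ := by
    show ∫ ω, cost (fun l => e (A.pol ω l)) s h ∂A.μ = ∫ ω, cost (A.pol ω) (s ∘ e) h ∂A.μ
    congr 1
    funext ω
    exact (relabel_conf_cost e (A.pol ω) s h).2
  rw [h1]
  have h2 := hB h
  have h3 : (c : ℝ) * opt (s ∘ e) h ≤ (c : ℝ) * opt s h :=
    mul_le_mul_of_nonneg_left (opt_relabel_le e s h) c.2
  linarith

end relabel

section sup

instance instBoundedSpacePad {X : Type} [MetricSpace X] [BoundedSpace X] :
    BoundedSpace (Pad X) :=
  ⟨Metric.isBounded_iff.2 ⟨padD X, fun a _ b _ => pad_dist_le a b⟩⟩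

lemma pad_card {X : Type} (k : ℕ) (hf : ∃ f : Fin (k + 1) → X, Function.Injective f) :
    ∃ g : Fin (k + 1 + 1) → Pad X, Function.Injective g := by
  obtain ⟨f, hf⟩ := hf
  refine ⟨fun i => Fin.cases Pad.far (fun j => Pad.inj (f j)) i, ?_⟩
  intro a b
  refine Fin.cases ?_ (fun a' => ?_) a <;> refine Fin.cases ?_ (fun b' => ?_) b
  · intro _; rfl
  · intro h; simp at h
  · intro h; simp at h
  · intro h
    simp only [Fin.cases_succ, Pad.inj.injEq] at h
    rw [hf h]

theorem Rbdd_mono (k : ℕ) (hk : 1 ≤ k) : Rbdd k ≤ Rbdd (k + 1) := by
  have : Nonempty (Fin k) := ⟨⟨0, hk⟩⟩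
  unfold Rbdd
  refine iSup_le fun X => iSup_le fun _ => iSup_le fun _ => iSup_le fun hcard =>
    iSup_le fun s => ?_
  have h1 := ratio_le_ratio_pad s
  have h2 := ratio_relabel_le (finSuccEquiv k) (padConf s)
  refine le_trans (le_trans h1 h2) ?_
  exact le_iSup_of_le (Pad X) (le_iSup_of_le inferInstance (le_iSup_of_le inferInstance
    (le_iSup_of_le (pad_card k hcard) (le_iSup_of_le (padConf s ∘ finSuccEquiv k) le_rfl))))

end sup


end Vale.Agent.Lib.P304
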