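import Mathlib

namespace Vale.Agent.Lib.P304

open MeasureTheory

/-- A deterministic online policy for servers labelled by `ι` on the space `X`: given the
nonempty list of the requests seen so far, most recent first, it names the server that is
moved to the most recent request. -/
abbrev Policy (ι X : Type) : Type := List X → ι

/-- The configuration reached by the policy `π` from the initial configuration `s` after the
requests in `h` (most recent first): each request is served by moving the chosen server onto
it, the other servers stay. -/
def conf {ι X : Type} [DecidableEq ι] (π : Policy ι X) (s : ι → X) : List X → ι → X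
  | [] => s
  | r :: h => Function.update (conf π s h) (π (r :: h)) r

/-- The total distance moved by the policy `π` from `s` on the request list `h`
(most recent first). -/
def cost {ι X : Type} [DecidableEq ι] [MetricSpace X] (π : Policy ι X) (s : ι → X) :
    List X → ℝ
  | [] => 0
  | r :: h => cost π s h + dist (conf π s h (π (r :: h))) r

/-- The offline optimum: the least total movement over all ways of serving `h` by
single-server moves (every such schedule is the run of some policy on `h`). -/
noncomputable def opt {ι X : Type} [DecidableEq ι] [MetricSpace X] (s : ι → X)
    (h : List X) : ℝ :=
  ⨅ π : Policy ι X, cost π s h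

/-- A randomized online policy: a probability space of seeds and a deterministic policy for
every seed, each decision being a measurable function of the seed. -/
structure RandPolicy (ι X : Type) where
  Ω : Type
  [mΩ : MeasurableSpace Ω]
  μ : Measure Ω
  [prob : IsProbabilityMeasure μ]
  pol : Ω → Policy ι X
  meas : ∀ (h : List X) (i : ι), MeasurableSet {ω | pol ω h = i}

/-- `A` is `c`-competitive from `s` against the oblivious adversary: for some additive
constant `B`, the expected cost on every finite request list `h` is at most
`c * opt s h + B`. -/
def IsCompetitive {ι X : Type} [DecidableEq ι] [MetricSpace X] (A : RandPolicy ι X)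
    (s : ι → X) (c : ℝ) : Prop :=
  ∃ B : ℝ, ∀ h : List X, ∫ ω, cost (A.pol ω) s h ∂A.μ ≤ c * opt s h + B

/-- The randomized competitive ratio `ρ(X,d,s)`: the infimum of all `c ≥ 0` for which some
randomized online policy is `c`-competitive from `s` (`⊤` if there is none). -/
noncomputable def ratio (ι X : Type) [DecidableEq ι] [MetricSpace X] (s : ι → X) : ENNReal :=
  ⨅ (c : NNReal) (_ : ∃ A : RandPolicy ι X, IsCompetitive A s (c : ℝ)), (c : ENNReal)

/-- The supremum of the randomized competitive ratio of the `k`-server problem over all
bounded metric spaces (on types of the lowest universe) with at least `k + 1` points and all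
initial configurations. -/
noncomputable def Rbdd (k : ℕ) : ENNReal :=
  ⨆ (X : Type) (_ : MetricSpace X) (_ : BoundedSpace X)
    (_ : ∃ f : Fin (k + 1) → X, Function.Injective f) (s : Fin k → X), ratio (Fin k) X s

end Vale.Agent.Lib.P304
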