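import Vale.Agent.Lib.P304.Defs

namespace Vale.Agent.Lib.P304

/-- The space `X` together with one new point `far`. -/
inductive Pad (X : Type) : Type
  | far : Pad X
  | inj : X → Pad X

/-- The distance on `Pad X`: the new point is at distance `1 + diam X` from every point of
`X`, and distances inside `X` are unchanged. -/
noncomputable def padDist {X : Type} [MetricSpace X] : Pad X → Pad X → ℝ
  | Pad.far, Pad.far => 0
  | Pad.far, Pad.inj _ => 1 + Metric.diam (Set.univ : Set X)
  | Pad.inj _, Pad.far => 1 + Metric.diam (Set.univ : Set X)
  | Pad.inj x, Pad.inj y => dist x y

noncomputable instance instMetricSpacePad {X : Type} [MetricSpace X] [BoundedSpace X] :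
    MetricSpace (Pad X) where
  dist := padDist
  dist_self := by
    intro a
    cases a <;> simp [padDist]
  dist_comm := by
    intro a b
    cases a <;> cases b <;> simp [padDist, dist_comm]
  dist_triangle := by
    intro a b c
    have hd : ∀ x y : X, dist x y ≤ Metric.diam (Set.univ : Set X) := fun x y =>
      Metric.dist_le_diam_of_mem (Bornology.IsBounded.all _)
        (Set.mem_univ x) (Set.mem_univ y)
    have h0 : 0 ≤ Metric.diam (Set.univ : Set X) := Metric.diam_nonneg
    cases a <;> cases b <;> cases c <;> simp only [padDist]
    all_goals first
      | linarith
      | (rename_i x y; linarith [hd x y, dist_nonneg (x := x) (y := y)])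
      | (rename_i x y z; exact dist_triangle x y z)
  eq_of_dist_eq_zero := by
    intro a b hab
    have h0 : 0 ≤ Metric.diam (Set.univ : Set X) := Metric.diam_nonneg
    cases a <;> cases b <;> simp only [padDist] at hab
    · rfl
    · linarith
    · linarith
    · rw [eq_of_dist_eq_zero hab]

/-- The padded initial configuration: the new server sits on the new point. -/
def padConf {ι X : Type} (s : ι → X) : Option ι → Pad X
  | none => Pad.far
  | some i => Pad.inj (s i)

end Vale.Agent.Lib.P304
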